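import Vale.Agent.P144F58.Defs
import Mathlib.Analysis.Distribution.Distribution

/-!
The spin field in a domain as a random distribution.
-/

namespace Vale.Agent.P144M13

open Filter Topology TopologicalSpace Vale.Agent.P144 Vale.Agent.P144F58

/-- The spin field of mesh `a` is a distribution `X a σ` in `D`; its law in `E` merges with the
law of `Z` times the field in `E₀`. -/
def DistDiff (D : Opens ℂ) (E₀ E : Fam) (Z : ℝ) : Prop :=
  ∃ X : ℝ → Config → Distribution D ℝ ⊤,
    (∀ a σ (f : TestFunction D ℝ ⊤), X a σ f = smear a f σ) ∧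
    ∀ F : BoundedContinuousFunction (Distribution D ℝ ⊤) ℝ,
      Tendsto (fun a => E a (fun σ => F (X a σ)) - E₀ a fun σ => F (Z • X a σ)) (𝓝[>] 0) (𝓝 0)

end Vale.Agent.P144M13
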