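import Vale.Agent.P144F58.Defs
import Mathlib.Analysis.Distribution.Distribution

/-!
The scaling limit of the spin field in a domain.
-/

namespace Vale.Agent.P144M13

open Filter Topology MeasureTheory TopologicalSpace Vale.Agent.P144 Vale.Agent.P144F58

/-- `P` is a Borel probability measure on the space of distributions in `D` whose mixed moments
are the integrals of `Z ^ n * C`. -/
def DistMom (D : Opens ℂ) (Z : ℝ) (C : Pts → ℝ)
    (P : @Measure (Distribution D ℝ ⊤) (borel _)) : Prop :=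
  IsProbabilityMeasure P ∧ ∀ n > 0, ∀ f : Fin n → TestFunction D ℝ ⊤,
    Integrable (fun T : Distribution D ℝ ⊤ => ∏ i, T (f i)) P ∧
    ∫ T, ∏ i, T (f i) ∂P = Z ^ n * ∫ x : Fin n → ℂ, (∏ i, f i (x i)) * C ⟨n, 0, x, ![], ![]⟩

/-- The mixed moments of the smeared field in `E` converge to the integrals of `Z ^ n * C`, and the
field converges in law, as a distribution in `D`, to the only law with these moments. -/
def FieldLim (D : Opens ℂ) (E : Fam) (Z : ℝ) (C : Pts → ℝ) : Prop :=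
  (∀ n > 0, ∀ f : Fin n → ℂ → ℝ, (∀ i, Test (f i) ∧ tsupport (f i) ⊆ D) →
    Integrable (fun x : Fin n → ℂ => (∏ i, f i (x i)) * C ⟨n, 0, x, ![], ![]⟩) ∧
    Tendsto (fun a => E a fun σ => ∏ i, smear a (f i) σ) (𝓝[>] 0)
      (𝓝 (Z ^ n * ∫ x : Fin n → ℂ, (∏ i, f i (x i)) * C ⟨n, 0, x, ![], ![]⟩))) ∧
  ∃ X : ℝ → Config → Distribution D ℝ ⊤,
    (∀ a σ (f : TestFunction D ℝ ⊤), X a σ f = smear a f σ) ∧
    ∃ P, DistMom D Z C P ∧ (∀ P', DistMom D Z C P' → P' = P) ∧
      ∀ F : BoundedContinuousFunction (Distribution D ℝ ⊤) ℝ,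
        Tendsto (fun a => E a fun σ => F (X a σ)) (𝓝[>] 0) (𝓝 (∫ T, F T ∂P))

end Vale.Agent.P144M13
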