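import Vale.Agent.P144F58.Moment

/-!
Two families of laws with asymptotically equal moments of moderate growth merge.
-/

namespace Vale.Agent.P144M13

open Filter Topology MeasureTheory Vale.Agent.P144F58
open scoped Nat

theorem law_diff {k : ℕ} {α : Type*} {l : Filter α} [l.IsCountablyGenerated]
    (μ ν : α → ProbabilityMeasure (EuclideanSpace ℝ (Fin k))) (M : ∀ n : ℕ, (Fin n → Fin k) → ℝ)
    (hiμ : ∀ a n (i : Fin n → Fin k),
      Integrable (fun y : EuclideanSpace ℝ (Fin k) => ∏ j, y (i j)) (μ a))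
    (hiν : ∀ a n (i : Fin n → Fin k),
      Integrable (fun y : EuclideanSpace ℝ (Fin k) => ∏ j, y (i j)) (ν a))
    (hd : ∀ n (i : Fin n → Fin k), Tendsto (fun a =>
      ∫ y : EuclideanSpace ℝ (Fin k), ∏ j, y (i j) ∂(μ a) -
        ∫ y : EuclideanSpace ℝ (Fin k), ∏ j, y (i j) ∂(ν a)) l (𝓝 0))
    (hb : ∀ n (i : Fin n → Fin k), ∀ ε > 0, ∀ᶠ a in l,
      |∫ y : EuclideanSpace ℝ (Fin k), ∏ j, y (i j) ∂(ν a)| ≤ M n i + ε)
    (hg : ∀ t : Fin k → ℝ, Tendsto (fun q : ℕ =>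
      (∑ i : Fin (2 * q) → Fin k, (∏ j, t (i j)) * M (2 * q) i) / (2 * q)!) atTop (𝓝 0))
    (F : BoundedContinuousFunction (EuclideanSpace ℝ (Fin k)) ℝ) :
    Tendsto (fun a => ∫ y, F y ∂(μ a) - ∫ y, F y ∂(ν a)) l (𝓝 0) := by
  refine tendsto_of_subseq_tendsto fun u hu => ?_
  let x : ℕ → (Σ n : ℕ, Fin n → Fin k) → ℝ := fun s p =>
    ∫ y : EuclideanSpace ℝ (Fin k), ∏ j, y (p.2 j) ∂(ν (u s))
  have hB : ∀ p, ∃ B, ∀ s, |x s p| ≤ B := fun p => by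
    have h : IsBoundedUnder (· ≤ ·) atTop fun s => |x s p| :=
      ⟨M p.1 p.2 + 1, hu.eventually (hb p.1 p.2 1 one_pos)⟩
    obtain ⟨B, hB⟩ := h.bddAbove_range
    exact ⟨B, fun s => hB ⟨s, rfl⟩⟩
  choose B hB using hB
  obtain ⟨m, -, w, hw, hm⟩ := (isCompact_univ_pi fun p => isCompact_Icc (a := -B p)
    (b := B p)).tendsto_subseq (x := x) fun s p _ => abs_le.1 (hB p s)
  have hv : Tendsto (fun s => u (w s)) atTop l := hu.comp hw.tendsto_atTop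
  have m2 : ∀ n (i : Fin n → Fin k), Tendsto (fun s =>
      ∫ y : EuclideanSpace ℝ (Fin k), ∏ j, y (i j) ∂(ν (u (w s)))) atTop (𝓝 (m ⟨n, i⟩)) :=
    fun n i => tendsto_pi_nhds.1 hm ⟨n, i⟩
  have m1 : ∀ n (i : Fin n → Fin k), Tendsto (fun s =>
      ∫ y : EuclideanSpace ℝ (Fin k), ∏ j, y (i j) ∂(μ (u (w s)))) atTop (𝓝 (m ⟨n, i⟩)) :=
    fun n i => by simpa using ((hd n i).comp hv).add (m2 n i)
  have mb : ∀ n (i : Fin n → Fin k), |m ⟨n, i⟩| ≤ M n i := fun n i =>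
    le_of_forall_pos_le_add fun ε hε => le_of_tendsto (m2 n i).abs (hv.eventually (hb n i ε hε))
  have gr : ∀ t : EuclideanSpace ℝ (Fin k), Tendsto (fun q : ℕ =>
      (∑ i : Fin (2 * q) → Fin k, (∏ j, t (i j)) * m ⟨2 * q, i⟩) / (2 * q)!) atTop (𝓝 0) := by
    intro t
    refine squeeze_zero_norm (fun q => ?_) (hg fun j => |t j|)
    rw [Real.norm_eq_abs, abs_div, Nat.abs_cast]
    refine div_le_div_of_nonneg_right ((Finset.abs_sum_le_sum_abs _ _).trans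
      (Finset.sum_le_sum fun i _ => ?_)) (Nat.cast_nonneg _)
    rw [abs_mul, Finset.abs_prod]
    exact mul_le_mul_of_nonneg_left (mb _ i) (Finset.prod_nonneg fun _ _ => abs_nonneg _)
  obtain ⟨ρ, r1, -, r3⟩ := moments (fun s => μ (u (w s))) (fun n i => m ⟨n, i⟩)
    (fun _ => hiμ _) m1 gr
  obtain ⟨ρ', -, s2, s3⟩ := moments (fun s => ν (u (w s))) (fun n i => m ⟨n, i⟩)
    (fun _ => hiν _) m2 gr
  rw [s2 ρ r1] at r3
  have e := (ProbabilityMeasure.tendsto_iff_forall_integral_tendsto.1 r3 F).sub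
    (ProbabilityMeasure.tendsto_iff_forall_integral_tendsto.1 s3 F)
  rw [sub_self] at e
  exact ⟨w, e⟩

end Vale.Agent.P144M13
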