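import Vale.Agent.P144M13.Law
import Vale.Agent.P144V.Main

/-!
Finite-volume expectations: merging of the laws in the space of distributions.
-/

namespace Vale.Agent.P144M13

open Filter Topology MeasureTheory TopologicalSpace Set Vale.Agent.P144 Vale.Agent.P144F58
open Vale.Agent.P153D
open scoped Nat

theorem tight {Ω : Opens ℂ} (μ : ℕ → ProbabilityMeasure (Di Ω))
    (hi : ∀ n (f : Te Ω), Integrable (fun T : Di Ω => T f ^ 2) (μ n))
    (hb : ∀ f : Te Ω, ∃ B, ∀ᶠ n in atTop, ∫ T : Di Ω, T f ^ 2 ∂(μ n) ≤ B) :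
    IsCompact (closure (range μ)) := by
  have t := P144V.tig Ω ℕ (fun n => μ n) fun f ε hε => by
    obtain ⟨B, hB⟩ := (show IsBoundedUnder (· ≤ ·) atTop fun n => ∫ T : Di Ω, T f ^ 2 ∂(μ n) from
      hb f).bddAbove_range
    rcases eq_or_ne ε ⊤ with rfl | he
    · exact ⟨0, fun _ => le_top⟩
    have d := ENNReal.toReal_pos hε.ne' he
    obtain ⟨R, r1, r2⟩ : ∃ R : ℝ, 1 ≤ R ∧ B ≤ R * ε.toReal :=
      ⟨max 1 (B / ε.toReal), le_max_left _ _, (div_le_iff₀ d).1 (le_max_right _ _)⟩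
    refine ⟨R, fun n => ?_⟩
    have h := (mul_meas_ge_le_integral_of_nonneg (Eventually.of_forall fun T => sq_nonneg _)
      (hi n f) R).trans (hB ⟨n, rfl⟩)
    refine (measure_mono (t := {T | R ≤ T f ^ 2}) fun T hT => ?_).trans ?_
    · have h1 : R < |T f| := hT
      show R ≤ T f ^ 2
      nlinarith [sq_abs (T f)]
    · rw [← ENNReal.toReal_le_toReal (measure_ne_top _ _) he]
      exact le_of_mul_le_mul_left (h.trans r2) (by linarith)
  exact isCompact_closure_of_isTightMeasureSet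
    (t.subset (by rintro _ ⟨_, ⟨n, rfl⟩, rfl⟩; exact ⟨n, rfl⟩))

theorem merge {Ω : Opens ℂ} {α : Type*} {l : Filter α} [l.IsCountablyGenerated]
    (μ ν : α → ProbabilityMeasure (Di Ω))
    (iμ : ∀ a (f : Te Ω), Integrable (fun T : Di Ω => T f ^ 2) (μ a))
    (iν : ∀ a (f : Te Ω), Integrable (fun T : Di Ω => T f ^ 2) (ν a))
    (bμ : ∀ f : Te Ω, ∃ B, ∀ᶠ a in l, ∫ T : Di Ω, T f ^ 2 ∂(μ a) ≤ B)
    (bν : ∀ f : Te Ω, ∃ B, ∀ᶠ a in l, ∫ T : Di Ω, T f ^ 2 ∂(ν a) ≤ B)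
    (hm : ∀ (f : Te Ω) (F : BoundedContinuousFunction ℝ ℝ),
      Tendsto (fun a => ∫ T : Di Ω, F (T f) ∂(μ a) - ∫ T : Di Ω, F (T f) ∂(ν a)) l (𝓝 0))
    (F : BoundedContinuousFunction (Di Ω) ℝ) :
    Tendsto (fun a => ∫ T : Di Ω, F T ∂(μ a) - ∫ T : Di Ω, F T ∂(ν a)) l (𝓝 0) := by
  refine tendsto_of_seq_tendsto fun u hu => (tendsto_iff_ultrafilter _ _ _).2 fun U hU => ?_
  have key : ∀ ρ : α → ProbabilityMeasure (Di Ω),
      (∀ a (f : Te Ω), Integrable (fun T : Di Ω => T f ^ 2) (ρ a)) →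
      (∀ f : Te Ω, ∃ B, ∀ᶠ a in l, ∫ T : Di Ω, T f ^ 2 ∂(ρ a) ≤ B) → ∃ P : ProbabilityMeasure (Di Ω),
      ∀ G : BoundedContinuousFunction (Di Ω) ℝ,
        Tendsto (fun n => ∫ T : Di Ω, G T ∂(ρ (u n))) U (𝓝 (∫ T : Di Ω, G T ∂P)) := fun ρ hi hb => by
    obtain ⟨P, -, hP⟩ := (tight (ρ ∘ u) (fun n => hi _) fun f => (hb f).imp fun B h =>
      hu.eventually h).ultrafilter_le_nhds (U.map (ρ ∘ u))
      (le_principal_iff.2 (mem_map.2 (univ_mem' fun n => subset_closure ⟨n, rfl⟩)))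
    exact ⟨P, ProbabilityMeasure.tendsto_iff_forall_integral_tendsto.1 hP⟩
  obtain ⟨P, hP⟩ := key μ iμ bμ
  obtain ⟨Q, hQ⟩ := key ν iν bν
  have e : (P : Measure (Di Ω)) = Q := P144V.uni Ω _ _ P.2 Q.2 fun f => by
    refine ext_of_forall_integral_eq_of_IsFiniteMeasure fun G => ?_
    rw [integral_map (meas_ev f).aemeasurable G.continuous.aestronglyMeasurable,
      integral_map (meas_ev f).aemeasurable G.continuous.aestronglyMeasurable]
    exact sub_eq_zero.1 (tendsto_nhds_unique ((hP (G.compContinuous ⟨_, cont_ev f⟩)).sub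
      (hQ (G.compContinuous ⟨_, cont_ev f⟩))) (((hm f G).comp hu).mono_left hU))
  have := (hP F).sub (hQ F)
  rwa [e, sub_self] at this

theorem test {Ω : Opens ℂ} (f : Te Ω) : Test f := by
  refine ⟨f.contDiff.continuous.measurable, ?_,
    f.hasCompactSupport.isCompact.isBounded.subset (subset_tsupport _)⟩
  obtain ⟨B, hB⟩ := f.contDiff.continuous.bounded_above_of_compact_support f.hasCompactSupport
  exact ⟨B, hB⟩

theorem exists_T (Ω : Opens ℂ) (a : ℝ) (σ : Config) :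
    ∃ T : Di Ω, ∀ f : Te Ω, T f = smear a f σ := by
  have hm : Measurable fun x : ℂ => a ^ (-(1 / 8) : ℝ) * sp (σ (fl a x)) :=
    (spin_meas a).comp (f := fun x : ℂ => (x, σ)) (measurable_id.prodMk measurable_const)
  have hg : LocallyIntegrable fun x : ℂ => a ^ (-(1 / 8) : ℝ) * sp (σ (fl a x)) :=
    (locallyIntegrable_const |a ^ (-(1 / 8) : ℝ)|).mono hm.aestronglyMeasurable
      (Eventually.of_forall fun x => by
        rw [Real.norm_eq_abs, Real.norm_eq_abs, abs_mul, abs_sp, mul_one, abs_abs])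
  refine ⟨(TestFunction.integralAgainstBilinCLM (ContinuousLinearMap.mul ℝ ℝ) volume
    (fun x : ℂ => a ^ (-(1 / 8) : ℝ) * sp (σ (fl a x))) : Te Ω →L[ℝ] ℝ), fun f => ?_⟩
  exact TestFunction.integralAgainstBilinCLM_eq_integral (n := ⊤)
    (B := ContinuousLinearMap.mul ℝ ℝ) (hg.locallyIntegrableOn _) (f := f)

/-- The laws in the space of distributions merge if the moments do. -/
theorem dist_of_mom {J lam β J' lam' β' : ℝ} {V V' : Finset Site → ℝ} {D D' : Set ℂ}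
    {b b' : Option (ℝ → Config)} (Ω : Opens ℂ) (Z : ℝ) (M : Te Ω → ℕ → ℝ)
    (hd : ∀ f : Te Ω, ∀ n > 0, Tendsto (fun a =>
      inDom J lam V β D b a (fun σ => ∏ _j : Fin n, smear a f σ) -
        Z ^ n * inDom J' lam' V' β' D' b' a fun σ => ∏ _j : Fin n, smear a f σ) (𝓝[>] 0) (𝓝 0))
    (hb : ∀ f : Te Ω, ∀ n > 0, ∀ ε > 0, ∀ᶠ a in 𝓝[>] (0 : ℝ),
      |Z ^ n * inDom J' lam' V' β' D' b' a fun σ => ∏ _j : Fin n, smear a f σ| ≤ M f n + ε)
    (hg : ∀ f, ∀ t : Fin 1 → ℝ, Tendsto (fun q : ℕ =>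
      (∑ i : Fin (2 * q) → Fin 1, (∏ j, t (i j)) * M f (2 * q)) / (2 * q)!) atTop (𝓝 0)) :
    ∃ X : ℝ → Config → Di Ω, (∀ a σ (f : Te Ω), X a σ f = smear a f σ) ∧
      ∀ F : BoundedContinuousFunction (Di Ω) ℝ,
        Tendsto (fun a => inDom J lam V β D b a (fun σ => F (X a σ)) -
          inDom J' lam' V' β' D' b' a fun σ => F (Z • X a σ)) (𝓝[>] 0) (𝓝 0) := by
  choose X hX using exists_T Ω
  refine ⟨X, hX, fun F => ?_⟩
  choose μ hμ using fun a => gibbs_law J lam V β (b.map fun η => η a) (disc D a) (X a)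
  choose ν hν using fun a => gibbs_law J' lam' V' β' (b'.map fun η => η a) (disc D' a)
    fun σ => Z • X a σ
  have e : ∀ a (f : Te Ω), ∫ T : Di Ω, T f ^ 2 ∂(ν a : Measure (Di Ω)) =
      Z ^ 2 * inDom J' lam' V' β' D' b' a fun σ => ∏ _j : Fin 2, smear a f σ := fun a f => by
    obtain ⟨ρ, hρ⟩ := gibbs_law J' lam' V' β' (b'.map fun η => η a) (disc D' a)
      fun σ => ∏ _j : Fin 2, smear a f σ
    rw [(hν a _).2, inDom, ← (hρ fun y => y).2, ← integral_const_mul, (hρ _).2]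
    congr 1
    funext σ
    show (Z * X a σ f) ^ 2 = _
    simp [hX, mul_pow]
  have := merge (l := 𝓝[>] (0 : ℝ)) μ ν (fun a f => (hμ a _).1) (fun a f => (hν a _).1)
    (fun f => ⟨M f 2 + 2, ?_⟩) (fun f => ⟨M f 2 + 1, ?_⟩) (fun f G => ?_) F
  · simpa only [(hμ _ _).2, (hν _ _).2, inDom] using this
  · filter_upwards [hb f 2 two_pos 1 one_pos, (hd f 2 two_pos).eventually (gt_mem_nhds one_pos)]
      with a h1 h2
    have := le_abs_self (Z ^ 2 * inDom J' lam' V' β' D' b' a fun σ => ∏ _j : Fin 2, smear a f σ)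
    have e' : ∫ T : Di Ω, T f ^ 2 ∂(μ a : Measure (Di Ω)) =
        inDom J lam V β D b a fun σ => ∏ _j : Fin 2, smear a f σ := by
      rw [(hμ a _).2, inDom]
      simp [hX]
    linarith
  · filter_upwards [hb f 2 two_pos 1 one_pos] with a h1
    rw [e]
    exact (le_abs_self _).trans h1
  · have c0 : Continuous fun y : EuclideanSpace ℝ (Fin 1) => y 0 := by fun_prop
    refine (law_of_mom (fun a (_ : Fin 1) => smear a f) Z (fun n _ => M f n)
      (fun n hn _ => hd f n hn) (fun n hn _ => hb f n hn) (hg f)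
      (G.compContinuous ⟨_, c0⟩)).congr fun a => ?_
    rw [(hμ a _).2, (hν a _).2]
    simp only [inDom, ← hX]
    rfl

end Vale.Agent.P144M13
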