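import Vale.Agent.P144M56.Mom
import Vale.Agent.P144M13.Dist

/-!
The laws of the smeared spin field in a domain with free boundary condition merge.
-/

namespace Vale.Agent.P144M13

open Filter Topology MeasureTheory TopologicalSpace Vale.Agent.P144 Vale.Agent.P144Z
open Vale.Agent.P144F58 Vale.Agent.P144W Vale.Agent.P144M56

variable {J lam β Z : ℝ} {V : Finset Site → ℝ} {D : Set ℂ} {C : Pts → ℝ} {μ₀ : Measure Config}

theorem pull (b : Option (ℝ → Config)) (a : ℝ) {n : ℕ} (S : Fin n → Config → ℝ) :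
    inDom J lam V β D b a (fun σ => ∏ i, Z * S i σ) =
      Z ^ n * inDom J lam V β D b a fun σ => ∏ i, S i σ := by
  obtain ⟨ρ, hρ⟩ := gibbs_law J lam V β (b.map fun η => η a) (disc D a) fun σ => ∏ i, S i σ
  rw [inDom, ← (hρ fun y => y).2, ← integral_const_mul, (hρ _).2]
  simp [Finset.prod_mul_distrib]

theorem bound (hJ : 0 < J)
    (hL : ∀ p, Good Set.univ p → ∀ E₀, PlaneFam J 0 (fun _ => 0) (Kc / J) E₀ → Lim E₀ p (C p))
    (hC : ∀ p, Good Set.univ p → p.m = 0 → Even p.n → 0 < C p)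
    (h₀ : IsPlaneState J 0 (fun _ => 0) (Kc / J) μ₀) (ho : IsOpen D)
    (hb : Bornology.IsBounded D) (hZ : 0 < Z) {n : ℕ} (hn : 0 < n) {f : Fin n → ℂ → ℝ}
    (hf : ∀ i, Test (f i) ∧ tsupport (f i) ⊆ D) {ε : ℝ} (hε : 0 < ε) : ∀ᶠ a in 𝓝[>] (0 : ℝ),
      |Z ^ n * inDom J 0 (fun _ => 0) (Kc / J) D none a fun σ => ∏ j, smear a (f j) σ| ≤
        Z ^ n * (∫ x : Fin n → ℂ, (∏ j, |f j (x j)|) * C ⟨n, 0, x, ![], ![]⟩) + ε := by
  have ht := U1.zero_state hJ h₀
  have hF := sepm hJ ht (fam_self h₀) (loc_self μ₀)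
  have hm := ((spin_mom0 hJ hL hC μ₀ h₀ n hn (fun i x => |f i x|)
    fun i => test_abs (hf i).1).2.const_mul (Z ^ n)).eventually
      (gt_mem_nhds (lt_add_of_pos_right _ hε))
  have hK : 0 ≤ Kc / J := div_nonneg (div_nonneg (Real.log_nonneg
    (le_add_of_nonneg_right (Real.sqrt_nonneg _))) two_pos.le) hJ.le
  have hc : ∀ A, 0 ≤ U1.cf J 0 (fun _ => 0) A := fun A => by
    unfold U1.cf
    split_ifs <;> simp [hJ.le]
  filter_upwards [hm, self_mem_nhdsWithin,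
    dom_bd U1.pot_zero hc hK ht ho hb fun i => (hf i).2] with a h1 ha h2
  rw [one_pow, one_mul] at h1
  refine le_trans ?_ h1.le
  obtain ⟨k1, k2⟩ := fub_test hF ha (f := fun i x => |f i x|) fun i => test_abs (hf i).1
  rw [abs_mul, abs_of_pos (pow_pos hZ n), k2]
  refine mul_le_mul_of_nonneg_left ?_ (pow_pos hZ n).le
  have e : (inDom J 0 (fun _ => 0) (Kc / J) D none a fun σ => ∏ j, smear a (f j) σ) = _ :=
    (fub_expect _ _ _ _ a fun i => (hf i).1).2
  rw [e, ← Real.norm_eq_abs]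
  refine norm_integral_le_of_norm_le k1 (Eventually.of_forall fun x => ?_)
  exact h2 x

theorem law_dom (hJ : 0 < J)
    (hL : ∀ p, Good Set.univ p → ∀ E₀, PlaneFam J 0 (fun _ => 0) (Kc / J) E₀ → Lim E₀ p (C p))
    (hC : ∀ p, Good Set.univ p → p.m = 0 → Even p.n → 0 < C p)
    (h₀ : IsPlaneState J 0 (fun _ => 0) (Kc / J) μ₀) (ho : IsOpen D)
    (hb : Bornology.IsBounded D) (hZ : 0 < Z)
    (h : MomDiff D (crit J D none) (inDom J lam V β D none) Z) :
    LawDiff D (crit J D none) (inDom J lam V β D none) Z := fun k f hf F =>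
  law_of_mom (fun a i => smear a (f i)) Z
    (fun n i => Z ^ n * ∫ x : Fin n → ℂ, (∏ j, |f (i j) (x j)|) * C ⟨n, 0, x, ![], ![]⟩)
    (fun n _ i => by simpa only [crit, pull] using h n (fun j => f (i j)) fun j => hf (i j))
    (fun _ hn i _ hε => bound hJ hL hC h₀ ho hb hZ hn (fun j => hf (i j)) hε)
    (fun t => C13.growth hJ (spin_mom0 hJ hL hC) (f := fun i x => |f i x|)
      (fun i => test_abs (hf i).1) t Z) F

theorem dist_dom (hJ : 0 < J)
    (hL : ∀ p, Good Set.univ p → ∀ E₀, PlaneFam J 0 (fun _ => 0) (Kc / J) E₀ → Lim E₀ p (C p))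
    (hC : ∀ p, Good Set.univ p → p.m = 0 → Even p.n → 0 < C p)
    (h₀ : IsPlaneState J 0 (fun _ => 0) (Kc / J) μ₀) (ho : IsOpen D)
    (hb : Bornology.IsBounded D) (hZ : 0 < Z)
    (h : MomDiff D (crit J D none) (inDom J lam V β D none) Z) :
    ∃ X : ℝ → Config → Distribution (⟨D, ho⟩ : Opens ℂ) ℝ ⊤,
      (∀ a σ (f : TestFunction (⟨D, ho⟩ : Opens ℂ) ℝ ⊤), X a σ f = smear a f σ) ∧
      ∀ F : BoundedContinuousFunction (Distribution (⟨D, ho⟩ : Opens ℂ) ℝ ⊤) ℝ,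
        Tendsto (fun a => inDom J lam V β D none a (fun σ => F (X a σ)) -
          crit J D none a fun σ => F (Z • X a σ)) (𝓝[>] 0) (𝓝 0) :=
  dist_of_mom ⟨D, ho⟩ Z
    (fun f n => Z ^ n * ∫ x : Fin n → ℂ, (∏ j, |f (x j)|) * C ⟨n, 0, x, ![], ![]⟩)
    (fun f n _ => by
      simpa only [crit, pull] using h n (fun _ => f) fun _ => ⟨test f, f.tsupport_subset⟩)
    (fun f _ hn _ hε => bound hJ hL hC h₀ ho hb hZ hn (f := fun _ => f)
      (fun _ => ⟨test f, f.tsupport_subset⟩) hε)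
    fun f t => C13.growth hJ (spin_mom0 hJ hL hC) (f := fun _ x => |f x|)
      (fun _ => test_abs (test f)) t Z

end Vale.Agent.P144M13
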