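import Vale.Agent.P144M13.Dom
import Vale.Agent.P144M13.Defs

/-!
The laws of the spin field in the space of distributions in a domain merge.
-/

namespace Vale.Agent.P144M13

open MeasureTheory TopologicalSpace Vale.Agent.P144 Vale.Agent.P144M56

theorem distDiff {J lam β Z : ℝ} {V : Finset Site → ℝ} {D : Opens ℂ} {C : Pts → ℝ}
    {μ₀ : Measure Config} (hJ : 0 < J)
    (hL : ∀ p, Good Set.univ p → ∀ E₀, PlaneFam J 0 (fun _ => 0) (Kc / J) E₀ → Lim E₀ p (C p))
    (hC : ∀ p, Good Set.univ p → p.m = 0 → Even p.n → 0 < C p)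
    (h₀ : IsPlaneState J 0 (fun _ => 0) (Kc / J) μ₀) (hb : Bornology.IsBounded (D : Set ℂ))
    (hZ : 0 < Z) (h : MomDiff D (crit J D none) (inDom J lam V β D none) Z) :
    DistDiff D (crit J D none) (inDom J lam V β D none) Z :=
  dist_dom hJ hL hC h₀ D.2 hb hZ h

end Vale.Agent.P144M13
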