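import Vale.Agent.P144M13.Dist

/-!
The method of moments in the space of distributions.
-/

namespace Vale.Agent.P144M13

open Filter Topology MeasureTheory TopologicalSpace Vale.Agent.P144F58 Vale.Agent.P153D
open scoped Nat

theorem law_gen {Ω : Opens ℂ} {α : Type*} {l : Filter α} [l.NeBot] [l.IsCountablyGenerated]
    (ρ : α → ProbabilityMeasure (Di Ω)) (m : ∀ n : ℕ, (Fin n → Te Ω) → ℝ)
    (hi : ∀ a n (f : Fin n → Te Ω), Integrable (fun T : Di Ω => ∏ i, T (f i)) (ρ a))
    (hm : ∀ n (f : Fin n → Te Ω),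
      Tendsto (fun a => ∫ T : Di Ω, ∏ i, T (f i) ∂(ρ a)) l (𝓝 (m n f)))
    (hg : ∀ k (f : Fin k → Te Ω) (t : EuclideanSpace ℝ (Fin k)), Tendsto (fun q : ℕ =>
      (∑ i : Fin (2 * q) → Fin k, (∏ j, t (i j)) * m (2 * q) fun j => f (i j)) / (2 * q)!)
        atTop (𝓝 0)) :
    ∃ P : ProbabilityMeasure (Di Ω), (∀ n (f : Fin n → Te Ω),
      Integrable (fun T : Di Ω => ∏ i, T (f i)) P ∧ ∫ T : Di Ω, ∏ i, T (f i) ∂P = m n f) ∧
      (∀ Q : ProbabilityMeasure (Di Ω), (∀ n (f : Fin n → Te Ω),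
        Integrable (fun T : Di Ω => ∏ i, T (f i)) Q ∧ ∫ T : Di Ω, ∏ i, T (f i) ∂Q = m n f) →
          Q = P) ∧ Tendsto ρ l (𝓝 P) := by
  have cv : ∀ k (f : Fin k → Te Ω), Continuous fun T : Di Ω =>
      (WithLp.toLp 2 fun i => T (f i) : EuclideanSpace ℝ (Fin k)) := fun k f =>
    (PiLp.continuous_toLp 2 _).comp (continuous_pi fun i => cont_ev (f i))
  have cp : ∀ k n (i : Fin n → Fin k),
      Continuous fun y : EuclideanSpace ℝ (Fin k) => ∏ j, y (i j) := fun k n i => by fun_prop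
  have tr : ∀ (Q : ProbabilityMeasure (Di Ω)) k (f : Fin k → Te Ω) n (i : Fin n → Fin k),
      (Integrable (fun y : EuclideanSpace ℝ (Fin k) => ∏ j, y (i j))
        (Q.map (cv k f).measurable.aemeasurable) ↔
          Integrable (fun T : Di Ω => ∏ j, T (f (i j))) Q) ∧
      ∫ y : EuclideanSpace ℝ (Fin k), ∏ j, y (i j) ∂(Q.map (cv k f).measurable.aemeasurable) =
        ∫ T : Di Ω, ∏ j, T (f (i j)) ∂Q := fun Q k f n i =>
    ⟨integrable_map_measure (cp k n i).aestronglyMeasurable (cv k f).measurable.aemeasurable,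
      integral_map (cv k f).measurable.aemeasurable (cp k n i).aestronglyMeasurable⟩
  choose ν h1 h2 h3 using fun k (f : Fin k → Te Ω) => moments (l := l)
    (fun a => (ρ a).map (cv k f).measurable.aemeasurable) (fun n i => m n fun j => f (i j))
    (fun a n i => (tr _ k f n i).1.2 (hi a n _))
    (fun n i => by simpa only [(tr _ k f n i).2] using hm n fun j => f (i j)) (hg k f)
  have c0 : Continuous fun y : EuclideanSpace ℝ (Fin 1) => y 0 := by fun_prop
  have mm : ∀ (Q : ProbabilityMeasure (Di Ω)) (f : Te Ω),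
      (Q.map (cv 1 fun _ => f).measurable.aemeasurable).map c0.measurable.aemeasurable =
        Q.map (meas_ev f).aemeasurable := fun Q f =>
    Subtype.ext (Measure.map_map c0.measurable (cv 1 fun _ => f).measurable)
  have t1 : ∀ f : Te Ω, Tendsto (fun a => (ρ a).map (meas_ev f).aemeasurable) l
      (𝓝 ((ν 1 fun _ => f).map c0.measurable.aemeasurable)) := fun f => by
    simpa only [mm] using
      ProbabilityMeasure.tendsto_map_of_tendsto_of_continuous _ _ (h3 1 fun _ => f) c0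
  obtain ⟨u, hu⟩ := l.exists_seq_tendsto
  obtain ⟨P, hP, -⟩ := P144V.fer Ω (ρ ∘ u) _ fun f => (t1 f).comp hu
  have un : ∀ Q : ProbabilityMeasure (Di Ω), (∀ f : Te Ω, Q.map (meas_ev f).aemeasurable =
      (ν 1 fun _ => f).map c0.measurable.aemeasurable) → Q = P := fun Q h =>
    Subtype.ext (P144V.uni Ω _ _ Q.2 P.2 fun f => congrArg Subtype.val ((h f).trans (hP f).symm))
  have lim : Tendsto ρ l (𝓝 P) := tendsto_of_seq_tendsto fun v hv => by
    obtain ⟨G, hG, h⟩ := P144V.fer Ω (ρ ∘ v) _ fun f => (t1 f).comp hv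
    rwa [un G hG] at h
  refine ⟨P, fun n f => ?_, fun Q hQ => un Q fun f => ?_, lim⟩
  · have e := tendsto_nhds_unique
      (ProbabilityMeasure.tendsto_map_of_tendsto_of_continuous _ _ lim (cv n f)) (h3 n f)
    have := h1 n f n id
    rw [← e, (tr P n f n id).1, (tr P n f n id).2] at this
    exact this
  · rw [← mm, h2 1 (fun _ => f) (Q.map (cv 1 fun _ => f).measurable.aemeasurable) fun n i => ?_]
    rw [(tr Q 1 _ n i).1, (tr Q 1 _ n i).2]
    exact hQ n _

end Vale.Agent.P144M13
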