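import Vale.Agent.P144M13.Diff
import Vale.Agent.P144.Defs

/-!
Finite-volume expectations: merging of the laws from merging of the moments.
-/

namespace Vale.Agent.P144M13

open Filter Topology MeasureTheory Vale.Agent.P144
open scoped Nat

theorem expect_law {X : Type} [MeasurableSpace X] [MeasurableSingletonClass X] (β : ℝ)
    (H : Config → ℝ) (Λ : Finset Site) (η : Config) (Y : Config → X) :
    ∃ ρ : ProbabilityMeasure X, ∀ G : X → ℝ, Integrable G ρ ∧
      ∫ y, G y ∂ρ = expect β H Λ η fun σ => G (Y σ) := by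
  set W := ∑ T ∈ Λ.powerset, Real.exp (-β * H (ext Λ η T)) with hW
  have W0 : 0 < W := Finset.sum_pos (fun _ _ => Real.exp_pos _) ⟨∅, by simp⟩
  have p0 : ∀ T, 0 ≤ Real.exp (-β * H (ext Λ η T)) / W := fun T => by positivity
  let ρ : Measure X := ∑ T ∈ Λ.powerset,
    ENNReal.ofReal (Real.exp (-β * H (ext Λ η T)) / W) • Measure.dirac (Y (ext Λ η T))
  have hi : ∀ (G : X → ℝ) T, Integrable G (ENNReal.ofReal (Real.exp (-β * H (ext Λ η T)) / W) •
      Measure.dirac (Y (ext Λ η T))) := fun G T =>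
    (integrable_dirac (by simp)).smul_measure ENNReal.ofReal_ne_top
  have hp : IsProbabilityMeasure ρ := ⟨by
    simp only [ρ, Measure.coe_finsetSum, Finset.sum_apply, Measure.smul_apply, measure_univ,
      smul_eq_mul, mul_one]
    rw [← ENNReal.ofReal_sum_of_nonneg fun T _ => p0 T, ← Finset.sum_div, ← hW, div_self W0.ne',
      ENNReal.ofReal_one]⟩
  refine ⟨⟨ρ, hp⟩, fun G => ⟨integrable_finsetSum_measure.2 fun T _ => hi G T, ?_⟩⟩
  show ∫ y, G y ∂ρ = _
  rw [integral_finsetSum_measure fun T _ => hi G T, expect, ← hW, Finset.sum_div]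
  refine Finset.sum_congr rfl fun T _ => ?_
  rw [integral_smul_measure, integral_dirac, ENNReal.toReal_ofReal (p0 T), smul_eq_mul]
  ring

theorem gibbs_law {X : Type} [MeasurableSpace X] [MeasurableSingletonClass X] (J lam : ℝ)
    (V : Finset Site → ℝ) (β : ℝ) (b : Option Config) (Λ : Finset Site) (Y : Config → X) :
    ∃ ρ : ProbabilityMeasure X, ∀ G : X → ℝ, Integrable G ρ ∧
      ∫ y, G y ∂ρ = gibbs J lam V β b Λ fun σ => G (Y σ) := by
  cases b <;> exact expect_law _ _ _ _ Y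

/-- The laws in a domain merge if the moments do. -/
theorem law_of_mom {J lam β J' lam' β' : ℝ} {V V' : Finset Site → ℝ} {D D' : Set ℂ}
    {b b' : Option (ℝ → Config)} {k : ℕ} (S : ℝ → Fin k → Config → ℝ) (Z : ℝ)
    (M : ∀ n : ℕ, (Fin n → Fin k) → ℝ)
    (hd : ∀ n > 0, ∀ i : Fin n → Fin k, Tendsto (fun a =>
      inDom J lam V β D b a (fun σ => ∏ j, S a (i j) σ) -
        Z ^ n * inDom J' lam' V' β' D' b' a fun σ => ∏ j, S a (i j) σ) (𝓝[>] 0) (𝓝 0))
    (hb : ∀ n > 0, ∀ i : Fin n → Fin k, ∀ ε > 0, ∀ᶠ a in 𝓝[>] (0 : ℝ),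
      |Z ^ n * inDom J' lam' V' β' D' b' a fun σ => ∏ j, S a (i j) σ| ≤ M n i + ε)
    (hg : ∀ t : Fin k → ℝ, Tendsto (fun q : ℕ =>
      (∑ i : Fin (2 * q) → Fin k, (∏ j, t (i j)) * M (2 * q) i) / (2 * q)!) atTop (𝓝 0))
    (F : BoundedContinuousFunction (EuclideanSpace ℝ (Fin k)) ℝ) :
    Tendsto (fun a => inDom J lam V β D b a (fun σ => F (WithLp.toLp 2 fun i => S a i σ)) -
      inDom J' lam' V' β' D' b' a fun σ => F (WithLp.toLp 2 fun i => Z * S a i σ))
      (𝓝[>] 0) (𝓝 0) := by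
  choose μ hμ using fun a => gibbs_law J lam V β (b.map fun η => η a) (disc D a)
    fun σ => (WithLp.toLp 2 fun i => S a i σ : EuclideanSpace ℝ (Fin k))
  choose ν hν using fun a => gibbs_law J' lam' V' β' (b'.map fun η => η a) (disc D' a)
    fun σ => (WithLp.toLp 2 fun i => Z * S a i σ : EuclideanSpace ℝ (Fin k))
  have e : ∀ a n (i : Fin n → Fin k), ∫ y : EuclideanSpace ℝ (Fin k), ∏ j, y (i j) ∂(ν a) =
      Z ^ n * inDom J' lam' V' β' D' b' a fun σ => ∏ j, S a (i j) σ := fun a n i => by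
    obtain ⟨ρ, hρ⟩ := gibbs_law J' lam' V' β' (b'.map fun η => η a) (disc D' a)
      fun σ => ∏ j, S a (i j) σ
    rw [(hν a _).2, inDom, ← (hρ fun y => y).2, ← integral_const_mul, (hρ _).2]
    simp [Finset.prod_mul_distrib]
  have := law_diff (l := 𝓝[>] (0 : ℝ)) μ ν (fun n i => if n = 0 then 1 else M n i)
    (fun a n i => (hμ a _).1) (fun a n i => (hν a _).1) (fun n i => ?_) (fun n i ε hε => ?_)
    (fun t => ?_) F
  · simpa only [(hμ _ _).2, (hν _ _).2, inDom] using this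
  · rcases n.eq_zero_or_pos with rfl | hn
    · simp
    · simpa only [e, (hμ _ _).2, inDom] using hd n hn i
  · rcases n.eq_zero_or_pos with rfl | hn
    · simp [hε.le]
    · simpa only [e, if_neg hn.ne'] using hb n hn i ε hε
  · refine (hg t).congr' ?_
    filter_upwards [eventually_gt_atTop 0] with q hq
    simp only [if_neg (show 2 * q ≠ 0 by omega)]

end Vale.Agent.P144M13
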