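import Vale.Agent.P144M56.Dom
import Vale.Agent.P144M13.Gen
import Vale.Agent.P144M13.DefsO
import Vale.Agent.P144P.PlaneC

/-!
The scaling limit of the spin field in a domain with free boundary condition.
-/

namespace Vale.Agent.P144M13

open Filter Topology MeasureTheory TopologicalSpace Vale.Agent.P144 Vale.Agent.P144Z
open Vale.Agent.P144F58 Vale.Agent.P144W Vale.Agent.P144M56 Vale.Agent.P153D
open scoped Nat

variable {J lam β Zσ Zε Z : ℝ} {V : Finset Site → ℝ} {D : Set ℂ} {C C₀ : Pts → ℝ}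
  {μ : Measure Config}

theorem mom_out (hV : IsPotential V) (hc : ∀ A, 0 ≤ U1.cf J lam V A) (hβ : 0 ≤ β)
    (hμ : IsTorusState J lam V β μ) (hF : Fd μ ph) (hM : Mom μ Zσ C₀) (hZσ : 0 < Zσ)
    (hL : ∀ p, Good Set.univ p → Lim (famOf μ) p (Zσ ^ p.n * Zε ^ p.m * C₀ p))
    (hC : ∀ p, Good Set.univ p → p.m = 0 → Even p.n → 0 < C₀ p)
    (ho : IsOpen D) (hb : Bornology.IsBounded D) (hZ : 0 < Z)
    (h : ∀ (n : ℕ) (x : Fin n → ℂ), Good D ⟨n, 0, x, ![], ![]⟩ →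
      Lim (inDom J lam V β D none) ⟨n, 0, x, ![], ![]⟩ (Z ^ n * C ⟨n, 0, x, ![], ![]⟩))
    {n : ℕ} (hn : 0 < n) {f : Fin n → ℂ → ℝ} (hf : ∀ i, Test (f i) ∧ tsupport (f i) ⊆ D) :
    (Integrable (fun x : Fin n → ℂ => (∏ i, f i (x i)) * C ⟨n, 0, x, ![], ![]⟩) ∧
    Tendsto (fun a => inDom J lam V β D none a fun σ => ∏ i, smear a (f i) σ) (𝓝[>] 0)
      (𝓝 (Z ^ n * ∫ x : Fin n → ℂ, (∏ i, f i (x i)) * C ⟨n, 0, x, ![], ![]⟩))) ∧
    |Z ^ n * ∫ x : Fin n → ℂ, (∏ i, f i (x i)) * C ⟨n, 0, x, ![], ![]⟩| ≤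
      Zσ ^ n * ∫ x : Fin n → ℂ, (∏ i, |f i (x i)|) * C₀ ⟨n, 0, x, ![], ![]⟩ := by
  obtain ⟨H, η, e1⟩ : ∃ (H : ℝ → Config → ℝ) (η : Config), ∀ a,
      inDom J lam V β D none a = expect β (H a) (disc D a) η := ⟨_, _, fun _ => rfl⟩
  have hT := fun i => (hf i).1
  have hA := fun i => test_abs (hT i)
  have M1 := hM n hn _ hA
  have bd := dom_bd hV hc hβ hμ ho hb fun i => (hf i).2
  have iG : ∀ a, Integrable fun x : Fin n → ℂ => (∏ i, f i (x i)) *
      inDom J lam V β D none a fun σ => ∏ i, ph a (x i) σ := fun a => by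
    rw [e1]
    exact (fub_expect _ _ _ _ a hT).1
  have lG : ∀ᵐ x : Fin n → ℂ, Tendsto (fun a => (∏ i, f i (x i)) *
      inDom J lam V β D none a fun σ => ∏ i, ph a (x i) σ) (𝓝[>] 0)
      (𝓝 (Z ^ n * ((∏ i, f i (x i)) * C ⟨n, 0, x, ![], ![]⟩))) := (Cv.ae_inj n).mono fun x hx => by
    by_cases h0 : ∃ i, f i (x i) = 0
    · obtain ⟨i, hi⟩ := h0
      simp only [Finset.prod_eq_zero (f := fun i => f i (x i)) (Finset.mem_univ i) hi, zero_mul,
        mul_zero]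
      exact tendsto_const_nhds
    have hg : Good D ⟨n, 0, x, ![], ![]⟩ := ⟨hn, fun i => (hf i).2 (subset_tsupport _
      fun e => h0 ⟨i, e⟩), fun k => k.elim0, (good_of hn hx ![] ![]).2.2.2⟩
    have t := Tendsto.const_mul (∏ i, f i (x i)) (h _ _ hg)
    simp only [corr, Finset.univ_eq_empty, Finset.prod_empty, mul_one] at t
    rw [mul_left_comm] at t
    exact t
  have lH : ∀ᵐ x : Fin n → ℂ, Tendsto (fun a => (∏ i, |f i (x i)|) * cr μ ph a x) (𝓝[>] 0)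
      (𝓝 (Zσ ^ n * ((∏ i, |f i (x i)|) * C₀ ⟨n, 0, x, ![], ![]⟩))) :=
    (Cv.ae_inj n).mono fun x hx => by
      have t := (lim_cr hV hμ hZσ.le hC hL hn ![] ![] x hx).2.const_mul (∏ i, |f i (x i)|)
      rwa [mul_left_comm] at t
  have le : ∀ᵐ x : Fin n → ℂ, ‖Z ^ n * ((∏ i, f i (x i)) * C ⟨n, 0, x, ![], ![]⟩)‖ ≤
      Zσ ^ n * ((∏ i, |f i (x i)|) * C₀ ⟨n, 0, x, ![], ![]⟩) := by
    filter_upwards [lG, lH] with x a1 a2
    exact le_of_tendsto_of_tendsto a1.abs a2 (bd.mono fun a ha => ha x)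
  have iL : Integrable fun x : Fin n → ℂ => Z ^ n * ((∏ i, f i (x i)) * C ⟨n, 0, x, ![], ![]⟩) :=
    (M1.1.const_mul _).mono' (aestronglyMeasurable_of_tendsto_ae _ (fun a => (iG a).1) lG) le
  have P := pratt (ν := (volume : Measure (Fin n → ℂ))) (l := 𝓝[>] (0 : ℝ))
    (g := fun a x => (∏ i, f i (x i)) * (inDom J lam V β D none a fun σ => ∏ i, ph a (x i) σ) -
      Z ^ n * ((∏ i, f i (x i)) * C ⟨n, 0, x, ![], ![]⟩))
    (h := fun a x => (∏ i, |f i (x i)|) * cr μ ph a x +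
      |Z ^ n * ((∏ i, f i (x i)) * C ⟨n, 0, x, ![], ![]⟩)|)
    (h₀ := fun x => Zσ ^ n * ((∏ i, |f i (x i)|) * C₀ ⟨n, 0, x, ![], ![]⟩) +
      |Z ^ n * ((∏ i, f i (x i)) * C ⟨n, 0, x, ![], ![]⟩)|)
    (Eventually.of_forall fun a => (iG a).sub iL)
    (eventually_mem_nhdsWithin.mono fun a ha => (fub_test hF ha hA).1.add iL.abs)
    ((M1.1.const_mul _).add iL.abs)
    (bd.mono fun a ha x => (abs_sub _ _).trans (add_le_add (ha x) le_rfl))
    (lG.mono fun x hx => tendsto_sub_nhds_zero_iff.2 hx) (lH.mono fun x hx => hx.add_const _)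
    (by
      rw [integral_add (M1.1.const_mul _) iL.abs, integral_const_mul]
      refine (M1.2.add_const _).congr' (eventually_mem_nhdsWithin.mono fun a ha => ?_)
      simp only
      rw [integral_add (fub_test hF ha hA).1 iL.abs, (fub_test hF ha hA).2])
  refine ⟨⟨(integrable_const_mul_iff (IsUnit.mk0 _ (pow_pos hZ n).ne') _).1 iL,
    tendsto_sub_nhds_zero_iff.1 (P.congr fun a => ?_)⟩, ?_⟩
  · rw [integral_sub (iG a) iL, integral_const_mul, e1, (fub_expect _ _ _ _ a hT).2]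
  · rw [← integral_const_mul, ← integral_const_mul, ← Real.norm_eq_abs]
    exact norm_integral_le_of_norm_le (M1.1.const_mul _) le

theorem field_out (hJ : 0 < J) (hV : IsPotential V) (hc : ∀ A, 0 ≤ U1.cf J lam V A) (hβ : 0 ≤ β)
    (hμ : IsTorusState J lam V β μ) (hZσ : 0 < Zσ)
    (hP : ∀ E₀, PlaneFam J 0 (fun _ => 0) (Kc / J) E₀ →
      LocDiff Set.univ E₀ (famOf μ) Zσ Zε ∧ Identity Set.univ E₀ (famOf μ) Zσ Zε)
    (ho : IsOpen D) (hb : Bornology.IsBounded D) (hZ : 0 < Z)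
    (h : ∀ (n : ℕ) (x : Fin n → ℂ), Good D ⟨n, 0, x, ![], ![]⟩ →
      Lim (inDom J lam V β D none) ⟨n, 0, x, ![], ![]⟩ (Z ^ n * C ⟨n, 0, x, ![], ![]⟩)) :
    FieldLim ⟨D, ho⟩ (inDom J lam V β D none) Z C := by
  obtain ⟨C₀, hC⟩ := P144P.plane_C hJ
  obtain ⟨μ₀, h₀, -⟩ := H436.free_plane hJ
  have hE := fam_self h₀
  have h0 := spin_mom0 hJ (fun p hp => (hC p hp).1) fun p hp => (hC p hp).2.2.1
  have hL := fun p hp => (hP _ hE).2 p hp _ ((hC p hp).1 _ hE)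
  have key := fun n (hn : 0 < n) f hf => mom_out (n := n) (f := f) hV hc hβ hμ
    (sepm hJ hμ hE (hP _ hE).1) (spin_mom hJ hV hμ hE (hP _ hE).1 hZσ hL
      fun p hp => (hC p hp).2.2.1) hZσ hL (fun p hp => (hC p hp).2.2.1) ho hb hZ h hn hf
  have hf : ∀ f : Te ⟨D, ho⟩, Test f ∧ tsupport f ⊆ D := fun f => ⟨test f, f.tsupport_subset⟩
  choose X hX using exists_T ⟨D, ho⟩
  choose ρ hρ using fun a => gibbs_law J lam V β none (disc D a) (X a)
  obtain ⟨P, p1, p2, p3⟩ := law_gen (l := 𝓝[>] (0 : ℝ)) ρ (fun n f => if n = 0 then 1 else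
    Z ^ n * ∫ x : Fin n → ℂ, (∏ i, f i (x i)) * C ⟨n, 0, x, ![], ![]⟩) (fun a n f => (hρ a _).1)
    (fun n f => by
      rcases n.eq_zero_or_pos with rfl | hn
      · simp
      · simp only [(hρ _ _).2, hX, if_neg hn.ne']
        exact (key n hn _ fun i => hf (f i)).1.2)
    fun k f t => by
      refine squeeze_zero_norm' ?_ (C13.growth hJ h0 (f := fun i x => |f i x|)
        (fun i => test_abs (hf (f i)).1) (fun j => |t j|) Zσ)
      filter_upwards [eventually_gt_atTop 0] with q hq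
      rw [Real.norm_eq_abs, abs_div, Nat.abs_cast]
      refine div_le_div_of_nonneg_right ((Finset.abs_sum_le_sum_abs _ _).trans
        (Finset.sum_le_sum fun i _ => ?_)) (Nat.cast_nonneg _)
      rw [abs_mul, Finset.abs_prod, if_neg (by omega)]
      exact mul_le_mul_of_nonneg_left (key _ (by omega) _ fun j => hf (f (i j))).2
        (Finset.prod_nonneg fun _ _ => abs_nonneg _)
  refine ⟨fun n hn f hf => (key n hn f hf).1, X, hX, P, ⟨P.2, fun n hn f => ?_⟩,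
    fun Q hQ => congrArg Subtype.val (p2 ⟨Q, hQ.1⟩ fun n f => ?_), fun F => ?_⟩
  · simpa only [if_neg hn.ne'] using p1 n f
  · rcases n.eq_zero_or_pos with rfl | hn
    · have := hQ.1
      simp
    · rw [if_neg hn.ne']
      exact hQ.2 n hn f
  · exact (ProbabilityMeasure.tendsto_iff_forall_integral_tendsto.1 p3 F).congr
      fun a => (hρ a _).2

end Vale.Agent.P144M13
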